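import Vale.Agent.P150.SlowChain

/-!
One step of heat-bath dynamics increases the squared gradient of a function by at most a factor
`1 + O(1/n)`, when the coupling matrix has bounded operator norm.
-/

namespace Vale.Agent.P150.LogLow

open Finset

variable {n : ℕ} (J : Fin n → Fin n → ℝ)

/-- Discrete derivative in the coordinate `i`. -/
def du (i : Fin n) (g : (Fin n → Bool) → ℝ) (x : Fin n → Bool) : ℝ :=
  g (Function.update x i true) - g (Function.update x i false)

/-- Squared gradient. -/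
def G (g : (Fin n → Bool) → ℝ) (x : Fin n → Bool) : ℝ := ∑ i, du i g x ^ 2

/-- Probability that an update at `j` gives a plus spin. -/
noncomputable def pp (j : Fin n) (x : Fin n → Bool) : ℝ := (1 + Real.tanh (field J 0 j x)) / 2

/-- Resampling the spin at `j`. -/
noncomputable def Qop (j : Fin n) (g : (Fin n → Bool) → ℝ) (x : Fin n → Bool) : ℝ :=
  pp J j x * g (Function.update x j true) + (1 - pp J j x) * g (Function.update x j false)

/-- One step of the discrete chain. -/
noncomputable def step (g : (Fin n → Bool) → ℝ) (x : Fin n → Bool) : ℝ :=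
  (∑ j, Qop J j g x) / n

/-- Change of `pp j` when the spin at `i` changes. -/
noncomputable def rho (i j : Fin n) (x : Fin n → Bool) : ℝ :=
  pp J j (Function.update x i true) - pp J j (Function.update x i false)

lemma field_update (i j : Fin n) (b : Bool) (x : Fin n → Bool) :
    field J 0 j (Function.update x i b) =
      field J 0 j x + symJ J j i * (spin b - spin (x i)) := by
  simp only [field, Pi.zero_apply, zero_add]
  have h : ∀ k, symJ J j k * spin (Function.update x i b k) =
      symJ J j k * spin (x k) + if k = i then symJ J j i * (spin b - spin (x i)) else 0 := by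
    intro k
    by_cases hk : k = i
    · subst hk; simp; ring
    · simp [hk]
  simp only [h, sum_add_distrib, sum_ite_eq', mem_univ, if_true]

lemma field_update_self (j : Fin n) (b : Bool) (x : Fin n → Bool) :
    field J 0 j (Function.update x j b) = field J 0 j x := by
  rw [field_update, symJ_self, zero_mul, add_zero]

lemma pp_update_self (j : Fin n) (b : Bool) (x : Fin n → Bool) :
    pp J j (Function.update x j b) = pp J j x := by
  simp only [pp, field_update_self]

lemma pp_pos (j : Fin n) (x : Fin n → Bool) : 0 < pp J j x := by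
  have h := abs_lt.1 (Real.abs_tanh_lt_one (field J 0 j x))
  simp only [pp]; linarith

lemma pp_lt_one (j : Fin n) (x : Fin n → Bool) : pp J j x < 1 := by
  have h := abs_lt.1 (Real.abs_tanh_lt_one (field J 0 j x))
  simp only [pp]; linarith

lemma condExp_eq_Qop (j : Fin n) (g : (Fin n → Bool) → ℝ) (x : Fin n → Bool) :
    condExp J 0 j g x = Qop J j g x := by
  have hx : x = Function.update x j (x j) := (Function.update_eq_self j x).symm
  have hf : flip x j = Function.update x j (!x j) := rfl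
  have hw : 0 < weight J 0 x := Real.exp_pos _
  set H := field J 0 j x
  have hH : 0 < Real.exp H := Real.exp_pos _
  rw [condExp, weight_flip]
  simp only [rate, Qop, pp, Real.tanh_eq, Real.exp_neg]
  cases hb : x j
  · rw [hf, hb, Bool.not_false]
    conv_lhs => enter [1, 1, 2]; rw [hx, hb]
    simp only [spin, Bool.false_eq_true, if_false, neg_mul, one_mul, Real.exp_neg, neg_neg]
    field_simp
    ring
  · rw [hf, hb, Bool.not_true]
    conv_lhs => enter [1, 1, 2]; rw [hx, hb]
    simp only [spin, if_true, one_mul, Real.exp_neg]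
    field_simp
    ring

lemma du_Qop_self (i : Fin n) (g : (Fin n → Bool) → ℝ) (x : Fin n → Bool) :
    du i (Qop J i g) x = 0 := by
  simp only [du, Qop, pp_update_self, Function.update_idem, sub_self]

/-- The derivative of a resampled function. -/
lemma du_Qop {i j : Fin n} (hij : i ≠ j) (g : (Fin n → Bool) → ℝ) (x : Fin n → Bool) :
    du i (Qop J j g) x =
      (pp J j x * du i g (Function.update x j true) +
        (1 - pp J j x) * du i g (Function.update x j false)) +
      -(spin (x i) * rho J i j x *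
        (du i g (Function.update x j true) - du i g (Function.update x j false))) +
      rho J i j x * du j g x := by
  have hx : x = Function.update x i (x i) := (Function.update_eq_self i x).symm
  simp only [du, Qop, rho, Function.update_comm hij]
  conv_rhs => rw [hx]
  simp only [Function.update_comm hij, Function.update_self, Function.update_idem]
  cases x i <;> simp only [spin, if_true, Bool.false_eq_true, if_false] <;> ring

lemma hasDerivAt_tanh (u : ℝ) : HasDerivAt Real.tanh (1 - Real.tanh u ^ 2) u := by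
  have e : Real.tanh = fun y => Real.sinh y / Real.cosh y := funext Real.tanh_eq_sinh_div_cosh
  have hc := (Real.cosh_pos u).ne'
  rw [Real.tanh_eq_sinh_div_cosh, e]
  refine ((Real.hasDerivAt_sinh u).div (Real.hasDerivAt_cosh u) hc).congr_deriv ?_
  field_simp

lemma abs_tanh_sub_le (u v : ℝ) : |Real.tanh u - Real.tanh v| ≤ |u - v| := by
  have h := (convex_univ : Convex ℝ (Set.univ : Set ℝ)).norm_image_sub_le_of_norm_hasDerivWithin_le
    (C := 1) (fun w _ => (hasDerivAt_tanh w).hasDerivWithinAt) (fun w _ => by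
      rw [Real.norm_eq_abs, abs_of_nonneg (sub_nonneg.2 (sq_le_one_iff_abs_le_one _ |>.2
        (Real.abs_tanh_lt_one w).le))]
      exact sub_le_self _ (sq_nonneg _)) (Set.mem_univ v) (Set.mem_univ u)
  simpa using h

lemma rho_eq (i j : Fin n) (x : Fin n → Bool) :
    rho J i j x = (Real.tanh (field J 0 j x + symJ J i j * (1 - spin (x i))) -
      Real.tanh (field J 0 j x + symJ J i j * (-1 - spin (x i)))) / 2 := by
  simp only [rho, pp, field_update, symJ_comm J j i, spin, if_true, Bool.false_eq_true, if_false]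
  ring

/-- The linearisation of `rho`. -/
lemma rho_linear (i j : Fin n) (x : Fin n → Bool) :
    |rho J i j x - symJ J i j * (1 - Real.tanh (field J 0 j x) ^ 2)| ≤ 4 * symJ J i j ^ 2 := by
  set H := field J 0 j x
  set a := symJ J i j with ha
  set t := Real.tanh H
  set s := Set.Icc (H - 2 * |a|) (H + 2 * |a|)
  have hd : ∀ w ∈ s, HasDerivWithinAt (fun u => Real.tanh u - (1 - t ^ 2) * u)
      (1 - Real.tanh w ^ 2 - (1 - t ^ 2) * 1) s w := fun w _ =>
    ((hasDerivAt_tanh w).sub ((hasDerivAt_id w).const_mul (1 - t ^ 2))).hasDerivWithinAt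
  have hb : ∀ w ∈ s, ‖1 - Real.tanh w ^ 2 - (1 - t ^ 2) * 1‖ ≤ 4 * |a| := by
    intro w hw
    have h1 : |w - H| ≤ 2 * |a| := abs_le.2 ⟨by linarith [hw.1], by linarith [hw.2]⟩
    have h2 : |t - Real.tanh w| ≤ 2 * |a| :=
      (abs_tanh_sub_le H w).trans ((abs_sub_comm H w).le.trans h1)
    have h3 : |t + Real.tanh w| ≤ 2 :=
      (abs_add_le _ _).trans (by linarith [Real.abs_tanh_lt_one H, Real.abs_tanh_lt_one w])
    rw [Real.norm_eq_abs,
      show 1 - Real.tanh w ^ 2 - (1 - t ^ 2) * 1 = (t + Real.tanh w) * (t - Real.tanh w) by ring,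
      abs_mul]
    calc _ ≤ 2 * (2 * |a|) := mul_le_mul h3 h2 (abs_nonneg _) zero_le_two
      _ = _ := by ring
  have hs : spin (x i) = 1 ∨ spin (x i) = -1 := by cases x i <;> simp [spin]
  have hm : ∀ c : ℝ, |c| ≤ 2 → H + a * c ∈ s := fun c hc => by
    have : |a * c| ≤ 2 * |a| := by rw [abs_mul]; nlinarith [abs_nonneg a]
    exact ⟨by linarith [(abs_le.1 this).1], by linarith [(abs_le.1 this).2]⟩
  have h := (convex_Icc _ _).norm_image_sub_le_of_norm_hasDerivWithin_le hd hb
    (hm (-1 - spin (x i)) (by rcases hs with h | h <;> rw [h] <;> norm_num))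
    (hm (1 - spin (x i)) (by rcases hs with h | h <;> rw [h] <;> norm_num))
  rw [Real.norm_eq_abs, Real.norm_eq_abs] at h
  rw [rho_eq]
  have e1 : |H + a * (1 - spin (x i)) - (H + a * (-1 - spin (x i)))| = 2 * |a| := by
    rw [show H + a * (1 - spin (x i)) - (H + a * (-1 - spin (x i))) = 2 * a by ring, abs_mul,
      abs_two]
  rw [e1, show Real.tanh (H + a * (1 - spin (x i))) - (1 - t ^ 2) * (H + a * (1 - spin (x i))) -
      (Real.tanh (H + a * (-1 - spin (x i))) - (1 - t ^ 2) * (H + a * (-1 - spin (x i)))) =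
      2 * ((Real.tanh (H + a * (1 - spin (x i))) - Real.tanh (H + a * (-1 - spin (x i)))) / 2 -
        a * (1 - t ^ 2)) by ring, abs_mul, abs_two] at h
  nlinarith [sq_abs a]

/-- `rho` is controlled by the variance of one update. -/
lemma rho_sq_le (i j : Fin n) (x : Fin n → Bool) :
    rho J i j x ^ 2 ≤ Real.sinh (2 * symJ J i j) ^ 2 * (pp J j x * (1 - pp J j x)) := by
  set H := field J 0 j x
  set a := symJ J i j
  have hpp : pp J j x * (1 - pp J j x) = 1 / (4 * Real.cosh H ^ 2) := by
    have hc := (Real.cosh_pos H).ne'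
    have e : pp J j x * (1 - pp J j x) = (1 - Real.tanh H ^ 2) / 4 := by
      simp only [pp, H]; ring
    rw [e, Real.tanh_eq_sinh_div_cosh]
    field_simp
    linear_combination (Real.cosh_sq H)
  have key : ∀ u v : ℝ, Real.tanh u - Real.tanh v =
      Real.sinh (u - v) / (Real.cosh u * Real.cosh v) := by
    intro u v
    have := (Real.cosh_pos u).ne'
    have := (Real.cosh_pos v).ne'
    rw [Real.tanh_eq_sinh_div_cosh, Real.tanh_eq_sinh_div_cosh, Real.sinh_sub]
    field_simp
  have aux : ∀ c : ℝ, Real.sinh (2 * a) ^ 2 / (4 * Real.cosh H ^ 2 * Real.cosh c ^ 2) ≤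
      Real.sinh (2 * a) ^ 2 * (1 / (4 * Real.cosh H ^ 2)) := by
    intro c
    have h1 := Real.one_le_cosh c
    have h2 := Real.cosh_pos H
    rw [mul_one_div]
    exact div_le_div_of_nonneg_left (sq_nonneg _) (by positivity)
      (le_mul_of_one_le_right (by positivity) (one_le_pow₀ h1))
  rw [rho_eq, key, hpp,
    show H + a * (1 - spin (x i)) - (H + a * (-1 - spin (x i))) = 2 * a by ring]
  cases x i <;> simp only [spin, if_true, Bool.false_eq_true, if_false]
  · rw [show H + a * (-1 - (-1 : ℝ)) = H by ring]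
    refine le_of_eq_of_le ?_ (aux (H + a * (1 - -1)))
    ring
  · rw [show H + a * (1 - (1 : ℝ)) = H by ring]
    refine le_of_eq_of_le ?_ (aux (H + a * (-1 - 1)))
    ring

variable {J} {a : ℝ}

/-- A bound on the quadratic form bounds the operator norm. -/
lemma norm_mulVec (ha : 0 < a)
    (hJ : ∀ v : Fin n → ℝ, |∑ i, ∑ j, symJ J i j * v i * v j| ≤ a * ∑ i, v i ^ 2)
    (v : Fin n → ℝ) : ∑ i, (∑ j, symJ J i j * v j) ^ 2 ≤ a ^ 2 * ∑ i, v i ^ 2 := by
  set u : Fin n → ℝ := fun i => ∑ j, symJ J i j * v j with hu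
  have h1 := (abs_le.1 (hJ fun i => u i / a + v i)).2
  have h2 := (abs_le.1 (hJ fun i => u i / a - v i)).1
  have e : (∑ i, ∑ j, symJ J i j * (u i / a + v i) * (u j / a + v j)) -
      (∑ i, ∑ j, symJ J i j * (u i / a - v i) * (u j / a - v j)) =
      4 / a * ∑ i, u i ^ 2 := by
    have h3 : ∑ i, ∑ j, symJ J i j * v i * (u j / a) = ∑ i, u i ^ 2 / a := by
      rw [sum_comm]
      refine sum_congr rfl fun j _ => ?_
      rw [sq, mul_div_assoc]
      conv_rhs => arg 1; simp only [hu]
      rw [sum_mul]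
      exact sum_congr rfl fun i _ => by rw [symJ_comm J i j]
    have h4 : ∑ i, ∑ j, symJ J i j * (u i / a) * v j = ∑ i, u i ^ 2 / a := by
      refine sum_congr rfl fun i _ => ?_
      rw [sq, mul_div_assoc]
      conv_rhs => arg 1; simp only [hu]
      rw [sum_mul]
      exact sum_congr rfl fun j _ => by ring
    calc _ = 2 * (∑ i, ∑ j, symJ J i j * v i * (u j / a)) +
          2 * ∑ i, ∑ j, symJ J i j * (u i / a) * v j := by
          simp only [mul_sum, ← sum_sub_distrib, ← sum_add_distrib]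
          exact sum_congr rfl fun i _ => sum_congr rfl fun j _ => by ring
      _ = _ := by
          rw [h3, h4, ← sum_div]
          ring
  have e2 : ∑ i, (u i / a + v i) ^ 2 + ∑ i, (u i / a - v i) ^ 2 =
      2 * ((∑ i, u i ^ 2) / a ^ 2) + 2 * ∑ i, v i ^ 2 := by
    simp only [sum_div, mul_sum, ← sum_add_distrib]
    exact sum_congr rfl fun i _ => by rw [add_sq, sub_sq, div_pow]; ring
  have h5 : 4 / a * ∑ i, u i ^ 2 ≤
      a * (2 * ((∑ i, u i ^ 2) / a ^ 2) + 2 * ∑ i, v i ^ 2) := by
    rw [← e, ← e2, mul_add]; linarith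
  rw [mul_add, show a * (2 * ((∑ i, u i ^ 2) / a ^ 2)) = 2 / a * ∑ i, u i ^ 2 by field_simp] at h5
  have h6 : 2 / a * ∑ i, u i ^ 2 ≤ a * (2 * ∑ i, v i ^ 2) := by
    rw [show (4 : ℝ) / a = 2 / a + 2 / a by ring, add_mul] at h5
    linarith
  rw [div_mul_eq_mul_div, div_le_iff₀ ha] at h6
  nlinarith

lemma row_sq_le (ha : 0 < a)
    (hJ : ∀ v : Fin n → ℝ, |∑ i, ∑ j, symJ J i j * v i * v j| ≤ a * ∑ i, v i ^ 2) (j : Fin n) :
    ∑ i, symJ J i j ^ 2 ≤ a ^ 2 := by
  have h := norm_mulVec ha hJ fun i => if i = j then 1 else 0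
  simpa [sum_ite_eq', ite_pow] using h

lemma abs_le_of_norm (ha : 0 < a)
    (hJ : ∀ v : Fin n → ℝ, |∑ i, ∑ j, symJ J i j * v i * v j| ≤ a * ∑ i, v i ^ 2) (i j : Fin n) :
    |symJ J i j| ≤ a := by
  refine abs_le_of_sq_le_sq ?_ ha.le
  exact (single_le_sum (f := fun k => symJ J k j ^ 2) (fun k _ => sq_nonneg _) (mem_univ i)).trans
    (row_sq_le ha hJ j)

lemma row_sinh_le (ha : 0 < a)
    (hJ : ∀ v : Fin n → ℝ, |∑ i, ∑ j, symJ J i j * v i * v j| ≤ a * ∑ i, v i ^ 2) (i : Fin n) :
    ∑ j, Real.sinh (2 * symJ J i j) ^ 2 ≤ 4 * a ^ 2 * Real.cosh (2 * a) ^ 2 := by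
  have key : ∀ u : ℝ, Real.sinh u ^ 2 ≤ u ^ 2 * Real.cosh u ^ 2 := by
    intro u
    have h := (abs_tanh_sub_le u 0)
    rw [Real.tanh_zero, sub_zero, sub_zero, Real.tanh_eq_sinh_div_cosh, abs_div,
      abs_of_pos (Real.cosh_pos u), div_le_iff₀ (Real.cosh_pos u)] at h
    have h2 := pow_le_pow_left₀ (abs_nonneg _) h 2
    rwa [sq_abs, mul_pow, sq_abs] at h2
  calc ∑ j, Real.sinh (2 * symJ J i j) ^ 2
      ≤ ∑ j, 4 * symJ J i j ^ 2 * Real.cosh (2 * a) ^ 2 := sum_le_sum fun j _ => by
        refine (key _).trans ?_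
        rw [mul_pow, show (2 : ℝ) ^ 2 = 4 by norm_num]
        refine mul_le_mul_of_nonneg_left (pow_le_pow_left₀ (Real.cosh_pos _).le ?_ 2) (by positivity)
        rw [Real.cosh_le_cosh, abs_mul, abs_mul, abs_two, abs_of_pos ha]
        linarith [abs_le_of_norm ha hJ i j]
    _ ≤ _ := by
        rw [← sum_mul, ← mul_sum]
        refine mul_le_mul_of_nonneg_right (mul_le_mul_of_nonneg_left ?_ (by norm_num)) (sq_nonneg _)
        exact le_of_eq_of_le (sum_congr rfl fun j _ => by rw [symJ_comm J i j]) (row_sq_le ha hJ i)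

lemma sum_rho_mul_sq (ha : 0 < a)
    (hJ : ∀ v : Fin n → ℝ, |∑ i, ∑ j, symJ J i j * v i * v j| ≤ a * ∑ i, v i ^ 2)
    (x : Fin n → Bool) (u : Fin n → ℝ) :
    ∑ i, (∑ j, rho J i j x * u j) ^ 2 ≤ (2 * a ^ 2 + 32 * a ^ 4) * ∑ i, u i ^ 2 := by
  set s : Fin n → ℝ := fun j => (1 - Real.tanh (field J 0 j x) ^ 2) * u j
  set r : Fin n → Fin n → ℝ :=
    fun i j => rho J i j x - symJ J i j * (1 - Real.tanh (field J 0 j x) ^ 2)
  have hsplit : ∀ i, ∑ j, rho J i j x * u j = (∑ j, symJ J i j * s j) + ∑ j, r i j * u j :=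
    fun i => by
      rw [← sum_add_distrib]
      exact sum_congr rfl fun j _ => by simp only [r, s]; ring
  have h1 : ∑ i, (∑ j, symJ J i j * s j) ^ 2 ≤ a ^ 2 * ∑ i, u i ^ 2 := by
    refine (norm_mulVec ha hJ s).trans (mul_le_mul_of_nonneg_left (sum_le_sum fun j _ => ?_)
      (sq_nonneg a))
    simp only [s, mul_pow]
    refine mul_le_of_le_one_left (sq_nonneg _) ?_
    have h := sq_lt_one_iff_abs_lt_one _ |>.2 (Real.abs_tanh_lt_one (field J 0 j x))
    exact pow_le_one₀ (by linarith) (by linarith [sq_nonneg (Real.tanh (field J 0 j x))])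
  have h2 : ∑ i, (∑ j, r i j * u j) ^ 2 ≤ 16 * a ^ 4 * ∑ i, u i ^ 2 := by
    calc ∑ i, (∑ j, r i j * u j) ^ 2
        ≤ ∑ i, (∑ j, 4 * symJ J i j ^ 2) * ∑ j, 4 * symJ J i j ^ 2 * u j ^ 2 := by
          refine sum_le_sum fun i _ => sum_sq_le_sum_mul_sum_of_sq_le_mul _
            (fun j _ => by positivity) (fun j _ => by positivity) fun j _ => ?_
          rw [mul_pow, ← sq_abs (r i j)]
          have := pow_le_pow_left₀ (abs_nonneg _) (rho_linear J i j x) 2
          calc _ ≤ (4 * symJ J i j ^ 2) ^ 2 * u j ^ 2 :=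
                mul_le_mul_of_nonneg_right this (sq_nonneg _)
            _ = _ := by ring
      _ ≤ ∑ i, 4 * a ^ 2 * ∑ j, 4 * symJ J i j ^ 2 * u j ^ 2 := by
          refine sum_le_sum fun i _ => mul_le_mul_of_nonneg_right ?_
            (sum_nonneg fun j _ => by positivity)
          rw [← mul_sum]
          refine mul_le_mul_of_nonneg_left ?_ (by norm_num)
          exact le_of_eq_of_le (sum_congr rfl fun j _ => by rw [symJ_comm J i j])
            (row_sq_le ha hJ i)
      _ ≤ _ := by
          rw [← mul_sum, sum_comm,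
            show 16 * a ^ 4 * ∑ i, u i ^ 2 = 4 * a ^ 2 * ∑ i, 4 * a ^ 2 * u i ^ 2 by
              rw [← mul_sum]; ring]
          refine mul_le_mul_of_nonneg_left (sum_le_sum fun j _ => ?_) (by positivity)
          rw [← sum_mul, ← mul_sum]
          exact mul_le_mul_of_nonneg_right
            (mul_le_mul_of_nonneg_left (row_sq_le ha hJ j) (by norm_num)) (sq_nonneg _)
  calc ∑ i, (∑ j, rho J i j x * u j) ^ 2
      ≤ ∑ i, (2 * (∑ j, symJ J i j * s j) ^ 2 + 2 * (∑ j, r i j * u j) ^ 2) :=
        sum_le_sum fun i _ => by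
          rw [hsplit]; nlinarith [sq_nonneg ((∑ j, symJ J i j * s j) - ∑ j, r i j * u j)]
    _ ≤ _ := by
        rw [sum_add_distrib, ← mul_sum, ← mul_sum]
        linarith

/-- The growth rate of the squared gradient. -/
noncomputable def rateK (a : ℝ) : ℝ :=
  16 * a ^ 2 * Real.cosh (2 * a) ^ 2 + 1 + 4 * (2 * a ^ 2 + 32 * a ^ 4)

lemma rateK_pos (a : ℝ) : 1 ≤ rateK a := by
  have h1 : 0 ≤ 16 * a ^ 2 * Real.cosh (2 * a) ^ 2 := by positivity
  have h2 : 0 ≤ 4 * (2 * a ^ 2 + 32 * a ^ 4) := by positivity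
  unfold rateK; linarith

/-- One site in one step. -/
lemma du_step_sq (ha : 0 < a)
    (hJ : ∀ v : Fin n → ℝ, |∑ i, ∑ j, symJ J i j * v i * v j| ≤ a * ∑ i, v i ^ 2)
    {lam : ℝ} (hlam : lam = 16 * a ^ 2 * Real.cosh (2 * a) ^ 2 + 1) (hlamn : lam ≤ n)
    (g : (Fin n → Bool) → ℝ) (x : Fin n → Bool) (i : Fin n) :
    du i (step J g) x ^ 2 ≤
      (1 + lam / n) / n * (∑ j ∈ univ.erase i,
        (pp J j x * du i g (Function.update x j true) ^ 2 +
          (1 - pp J j x) * du i g (Function.update x j false) ^ 2)) +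
        4 / (lam * n) * (∑ j, rho J i j x * du j g x) ^ 2 := by
  set B : ℝ := 4 * a ^ 2 * Real.cosh (2 * a) ^ 2 with hB
  have hB0 : 0 ≤ B := by positivity
  have hlamB : lam = 4 * B + 1 := by rw [hlam, hB]; ring
  have hn0 : (0 : ℝ) < n := by linarith
  set A : Fin n → Fin n → ℝ := fun i j =>
    pp J j x * du i g (Function.update x j true) +
      (1 - pp J j x) * du i g (Function.update x j false)
  set A2 : Fin n → Fin n → ℝ := fun i j =>
    pp J j x * du i g (Function.update x j true) ^ 2 +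
      (1 - pp J j x) * du i g (Function.update x j false) ^ 2
  set d : Fin n → Fin n → ℝ := fun i j =>
    du i g (Function.update x j true) - du i g (Function.update x j false)
  set S : Fin n → Fin n → ℝ := fun i j => pp J j x * (1 - pp J j x) * d i j ^ 2
  set w : Fin n → ℝ := fun i => ∑ j, rho J i j x * du j g x
  show _ ≤ (1 + lam / n) / n * (∑ j ∈ univ.erase i, A2 i j) + 4 / (lam * n) * w i ^ 2
  have hS : ∀ i j, 0 ≤ S i j := fun i j =>
    mul_nonneg (mul_nonneg (pp_pos J j x).le (by linarith [pp_lt_one J j x])) (sq_nonneg _)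
  set X := ∑ j ∈ univ.erase i, A i j
  set E := ∑ j ∈ univ.erase i, -(spin (x i) * rho J i j x * d i j)
  have hrr : rho J i i x = 0 := by simp [rho, pp_update_self]
  have hw : ∑ j ∈ univ.erase i, rho J i j x * du j g x = w i := by
    rw [sum_erase _ (by rw [hrr, zero_mul])]
  have hd : du i (step J g) x = (X + (E + w i)) / n := by
    have e : du i (step J g) x = (∑ j, du i (Qop J j g) x) / n := by
      simp only [du, step, sum_sub_distrib, sub_div]
    rw [e, ← sum_erase (s := univ) (f := fun j => du i (Qop J j g) x) (du_Qop_self J i g x),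
      ← hw, ← sum_add_distrib, ← sum_add_distrib]
    congr 1
    exact sum_congr rfl fun j hj => by
      rw [du_Qop J (ne_of_mem_erase hj).symm g x, add_assoc]
  have hX : X ^ 2 ≤ n * ∑ j ∈ univ.erase i, (A2 i j - S i j) := by
    have e : ∀ j, A2 i j - S i j = A i j ^ 2 := fun j => by simp only [A, A2, S, d]; ring
    simp only [e]
    refine (sq_sum_le_card_mul_sum_sq).trans (mul_le_mul_of_nonneg_right ?_
      (sum_nonneg fun j _ => sq_nonneg _))
    exact_mod_cast (card_le_univ _).trans_eq (Fintype.card_fin n)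
  have hE : E ^ 2 ≤ B * ∑ j ∈ univ.erase i, S i j := by
    refine (sum_sq_le_sum_mul_sum_of_sq_le_mul _ (f := fun j => Real.sinh (2 * symJ J i j) ^ 2)
      (g := fun j => S i j) (fun j _ => sq_nonneg _) (fun j _ => hS i j) fun j _ => ?_).trans
      (mul_le_mul_of_nonneg_right ((sum_le_univ_sum_of_nonneg fun j => sq_nonneg _).trans
        (row_sinh_le ha hJ i)) (sum_nonneg fun j _ => hS i j))
    have hs2 : spin (x i) ^ 2 = 1 := by rw [sq, spin_mul_self]
    rw [neg_sq, mul_pow, mul_pow, hs2, one_mul]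
    refine (mul_le_mul_of_nonneg_right (rho_sq_le J i j x) (sq_nonneg _)).trans_eq ?_
    simp only [S]; ring
  have hS0 : 0 ≤ ∑ j ∈ univ.erase i, S i j := sum_nonneg fun j _ => hS i j
  rw [sum_sub_distrib] at hX
  rw [hd]
  have hl0 : 0 < lam := by linarith
  have hyoung : (X + (E + w i)) ^ 2 ≤
      (1 + lam / n) * X ^ 2 + (1 + n / lam) * (E + w i) ^ 2 := by
    have e : (1 + lam / n) * X ^ 2 + (1 + n / lam) * (E + w i) ^ 2 - (X + (E + w i)) ^ 2 =
        (lam * X - n * (E + w i)) ^ 2 / (lam * n) := by field_simp; ring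
    have : 0 ≤ (lam * X - n * (E + w i)) ^ 2 / (lam * n) := by positivity
    linarith
  have hY : (E + w i) ^ 2 ≤ 2 * (B * ∑ j ∈ univ.erase i, S i j) + 2 * w i ^ 2 := by
    nlinarith [sq_nonneg (E - w i)]
  have hcoef : (1 + n / lam) * 2 ≤ 4 * n / lam := by
    have : 1 ≤ (n : ℝ) / lam := (one_le_div hl0).2 hlamn
    rw [show 4 * (n : ℝ) / lam = 4 * (n / lam) by ring]
    linarith
  have hBn : 4 * n / lam * B ≤ (1 + lam / n) * n := by
    have h1 : 4 * B / lam ≤ 1 := (div_le_one hl0).2 (by linarith)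
    calc 4 * n / lam * B = n * (4 * B / lam) := by ring
      _ ≤ n * 1 := mul_le_mul_of_nonneg_left h1 hn0.le
      _ ≤ _ := by rw [add_mul, one_mul, div_mul_cancel₀ _ hn0.ne', mul_one]; linarith
  have h1 := mul_le_mul_of_nonneg_left hX (show 0 ≤ 1 + lam / n by positivity)
  have h2 := mul_le_mul_of_nonneg_left hY (show 0 ≤ 1 + n / lam by positivity)
  have h3 := mul_le_mul_of_nonneg_right hcoef
    (add_nonneg (mul_nonneg hB0 hS0) (sq_nonneg (w i)))
  have h4 := mul_le_mul_of_nonneg_right hBn hS0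
  have hfin : (X + (E + w i)) ^ 2 ≤
      (1 + lam / n) * n * (∑ j ∈ univ.erase i, A2 i j) + 4 * n / lam * w i ^ 2 := by
    linarith
  rw [div_pow, div_le_iff₀ (by positivity)]
  refine hfin.trans_eq ?_
  field_simp

/-- One step increases the squared gradient by a factor at most `1 + K/n`. -/
theorem G_step (ha : 0 < a)
    (hJ : ∀ v : Fin n → ℝ, |∑ i, ∑ j, symJ J i j * v i * v j| ≤ a * ∑ i, v i ^ 2)
    (hn : rateK a ≤ n) (g : (Fin n → Bool) → ℝ) {M : ℝ} (hM : ∀ x, G g x ≤ M)
    (x : Fin n → Bool) : G (step J g) x ≤ (1 + rateK a / n) * M := by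
  set lam : ℝ := 16 * a ^ 2 * Real.cosh (2 * a) ^ 2 + 1 with hlam
  set B : ℝ := 4 * a ^ 2 * Real.cosh (2 * a) ^ 2 with hB
  have hB0 : 0 ≤ B := by positivity
  have hlamB : lam = 4 * B + 1 := by rw [hlam, hB]; ring
  have hlam1 : 1 ≤ lam := by linarith
  have hK : rateK a = lam + 4 * (2 * a ^ 2 + 32 * a ^ 4) := by rw [rateK, hlam]
  have hc2 : 0 ≤ 2 * a ^ 2 + 32 * a ^ 4 := by positivity
  have hlamn : lam ≤ n := by linarith
  have hn0 : (0 : ℝ) < n := by linarith
  set A2 : Fin n → Fin n → ℝ := fun i j =>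
    pp J j x * du i g (Function.update x j true) ^ 2 +
      (1 - pp J j x) * du i g (Function.update x j false) ^ 2
  set w : Fin n → ℝ := fun i => ∑ j, rho J i j x * du j g x
  have hA2 : ∀ i j, 0 ≤ A2 i j := fun i j =>
    add_nonneg (mul_nonneg (pp_pos J j x).le (sq_nonneg _))
      (mul_nonneg (by linarith [pp_lt_one J j x]) (sq_nonneg _))
  have hper : ∀ i, du i (step J g) x ^ 2 ≤
      (1 + lam / n) / n * (∑ j ∈ univ.erase i, A2 i j) + 4 / (lam * n) * w i ^ 2 :=
    fun i => du_step_sq ha hJ hlam hlamn g x i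
  have hsum : ∑ i, ∑ j ∈ univ.erase i, A2 i j ≤ n * M := by
    refine (sum_le_sum fun i _ => sum_le_univ_sum_of_nonneg (hA2 i)).trans ?_
    rw [sum_comm]
    refine (sum_le_sum (g := fun _ : Fin n => M) fun j _ => ?_).trans_eq (by simp)
    simp only [A2, sum_add_distrib, ← mul_sum]
    have h1 := mul_le_mul_of_nonneg_left (hM (Function.update x j true)) (pp_pos J j x).le
    have h2 := mul_le_mul_of_nonneg_left (hM (Function.update x j false))
      (show 0 ≤ 1 - pp J j x by linarith [pp_lt_one J j x])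
    simp only [G] at h1 h2
    linarith
  have hwM : ∑ i, w i ^ 2 ≤ (2 * a ^ 2 + 32 * a ^ 4) * M :=
    (sum_rho_mul_sq ha hJ x fun j => du j g x).trans (mul_le_mul_of_nonneg_left (hM x) hc2)
  have hM0 : 0 ≤ M := (sum_nonneg fun i _ => sq_nonneg _).trans (hM x)
  calc G (step J g) x ≤ ∑ i, ((1 + lam / n) / n * (∑ j ∈ univ.erase i, A2 i j) +
        4 / (lam * n) * w i ^ 2) := sum_le_sum fun i _ => hper i
    _ ≤ (1 + lam / n) / n * (n * M) + 4 / (lam * n) * ((2 * a ^ 2 + 32 * a ^ 4) * M) := by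
        rw [sum_add_distrib, ← mul_sum, ← mul_sum]
        exact add_le_add (mul_le_mul_of_nonneg_left hsum (by positivity))
          (mul_le_mul_of_nonneg_left hwM (by positivity))
    _ ≤ _ := by
        have h1 : 4 / (lam * n) ≤ 4 / n :=
          div_le_div_of_nonneg_left (by norm_num) hn0 (le_mul_of_one_le_left hn0.le hlam1)
        have h2 := mul_le_mul_of_nonneg_right h1 (mul_nonneg hc2 hM0)
        have e1 : (1 + lam / n) / n * (n * M) = M + lam / n * M := by
          field_simp
        have e2 : (1 + rateK a / n) * M =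
            M + lam / n * M + 4 / n * ((2 * a ^ 2 + 32 * a ^ 4) * M) := by
          rw [hK]; ring
        linarith

end Vale.Agent.P150.LogLow
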