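import Vale.Agent.P150.Log.Gradient

/-!
Worst-start mixing in zero field takes time at least of order `log n` whenever the coupling matrix
has bounded operator norm: from some start the overlap with the start stays of order `n e^{-t}`,
while its variance grows at most like `n e^{K t}`.
-/

namespace Vale.Agent.P150.LogLow

open Finset Filter Vale.Agent.P150.Slow
open scoped Topology Matrix.Norms.Operator

variable {n : ℕ} (J : Fin n → Fin n → ℝ)

/-- The matrix of one discrete step. -/
noncomputable def Pm : Matrix (Fin n → Bool) (Fin n → Bool) ℝ := (n : ℝ)⁻¹ • generator J 0 + 1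

lemma Pm_mul (g : (Fin n → Bool) → ℝ) (hn : 0 < n) (x : Fin n → Bool) :
    ∑ y, Pm J x y * g y = step J g x := by
  have hn' : (n : ℝ) ≠ 0 := Nat.cast_ne_zero.2 hn.ne'
  simp only [Pm, Matrix.add_apply, Matrix.smul_apply, smul_eq_mul, add_mul, sum_add_distrib,
    mul_assoc, ← mul_sum, generator_mulVec, Matrix.one_apply, ite_mul, one_mul, zero_mul,
    sum_ite_eq, mem_univ, if_true, condExp_eq_Qop, sum_sub_distrib, sum_const, card_univ,
    Fintype.card_fin, nsmul_eq_mul, step]
  field_simp
  ring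

lemma pow_mul_fun (g : (Fin n → Bool) → ℝ) (hn : 0 < n) (k : ℕ) (x : Fin n → Bool) :
    ∑ y, (Pm J ^ k) x y * g y = ((step J)^[k] g) x := by
  induction k generalizing g with
  | zero => simp [Matrix.one_apply]
  | succ k ih =>
    rw [Function.iterate_succ_apply, ← ih (step J g), pow_succ]
    simp only [Matrix.mul_apply, sum_mul, ← Pm_mul J g hn, mul_sum]
    rw [sum_comm]
    exact sum_congr rfl fun _ _ => sum_congr rfl fun _ _ => by ring

/-- Poisson weights. -/
noncomputable def pw (r : ℝ) (k : ℕ) : ℝ := Real.exp (-r) * (r ^ k / k.factorial)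

lemma pw_nonneg {r : ℝ} (hr : 0 ≤ r) (k : ℕ) : 0 ≤ pw r k := by unfold pw; positivity

/-- The semigroup is a Poisson mixture of powers of the discrete step. -/
lemma hasSum_sg (f : (Fin n → Bool) → ℝ) (hn : 0 < n) (t : ℝ) (x : Fin n → Bool) :
    HasSum (fun k => pw (t * n) k * ((step J)^[k] f) x) (sg J f t x) := by
  have hn' : (n : ℝ) ≠ 0 := Nat.cast_ne_zero.2 hn.ne'
  set M : Matrix (Fin n → Bool) (Fin n → Bool) ℝ := (t * n) • Pm J with hM
  have hM' : M = t • generator J 0 + (t * n) • 1 := by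
    rw [hM, Pm, smul_add, smul_smul, mul_assoc, mul_inv_cancel₀ hn', mul_one]
  have e : NormedSpace.exp M = Real.exp (t * n) • kernel J 0 t := by
    rw [hM', Matrix.exp_add_of_commute _ _ ((Commute.one_right (t • generator J 0)).smul_right _),
      ← Algebra.algebraMap_eq_smul_one]
    erw [← NormedSpace.algebraMap_exp_comm (𝕂 := ℝ) (t * n)]
    rw [← Real.exp_eq_exp_ℝ, ← Algebra.commutes, ← Algebra.smul_def]
    rfl
  have hs := NormedSpace.exp_series_hasSum_exp' (𝕂 := ℝ) M
  have hy : ∀ y, HasSum (fun k => pw (t * n) k * ((Pm J ^ k) x y * f y))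
      (kernel J 0 t x y * f y) := by
    intro y
    have h1 : HasSum (fun k : ℕ => ((k.factorial : ℝ)⁻¹ • M ^ k) x y) ((NormedSpace.exp M) x y) :=
      hs.map (Matrix.entryLinearMap ℝ ℝ x y) (continuous_id.matrix_elem x y)
    have h2 := (h1.mul_left (Real.exp (-(t * n)))).mul_right (f y)
    rw [e, Matrix.smul_apply, smul_eq_mul, ← mul_assoc, ← Real.exp_add, neg_add_cancel,
      Real.exp_zero, one_mul] at h2
    have hf : (fun k => Real.exp (-(t * n)) * ((k.factorial : ℝ)⁻¹ • M ^ k) x y * f y) =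
        fun k => pw (t * n) k * ((Pm J ^ k) x y * f y) := by
      funext k
      simp only [hM, smul_pow, Matrix.smul_apply, smul_eq_mul, pw]
      ring
    rwa [hf] at h2
  have h := hasSum_sum fun y (_ : y ∈ (univ : Finset (Fin n → Bool))) => hy y
  have he : (fun k => ∑ y, pw (t * n) k * ((Pm J ^ k) x y * f y)) =
      fun k => pw (t * n) k * ((step J)^[k] f) x := by
    funext k
    rw [← mul_sum, pow_mul_fun J f hn]
  rw [he] at h
  exact h

variable {J} {a : ℝ}

lemma G_iterate (ha : 0 < a)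
    (hJ : ∀ v : Fin n → ℝ, |∑ i, ∑ j, symJ J i j * v i * v j| ≤ a * ∑ i, v i ^ 2)
    (hn : rateK a ≤ n) (g : (Fin n → Bool) → ℝ) {M : ℝ} (hM : ∀ x, G g x ≤ M) (k : ℕ) :
    ∀ x, G ((step J)^[k] g) x ≤ (1 + rateK a / n) ^ k * M := by
  induction k with
  | zero => simpa using hM
  | succ k ih =>
    intro x
    rw [Function.iterate_succ_apply', pow_succ', mul_assoc]
    exact G_step ha hJ hn _ ih x

lemma G_sg (ha : 0 < a)
    (hJ : ∀ v : Fin n → ℝ, |∑ i, ∑ j, symJ J i j * v i * v j| ≤ a * ∑ i, v i ^ 2)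
    (hn : rateK a ≤ n) (g : (Fin n → Bool) → ℝ) {M : ℝ} (hM : ∀ x, G g x ≤ M) {t : ℝ}
    (ht : 0 ≤ t) (x : Fin n → Bool) : G (sg J g t) x ≤ Real.exp (rateK a * t) * M := by
  have hn0 : (0 : ℝ) < n := lt_of_lt_of_le (by linarith [rateK_pos a]) hn
  have hM0 : 0 ≤ M := (sum_nonneg fun i _ => sq_nonneg _).trans (hM x)
  set r := t * n with hr
  have hr0 : 0 ≤ r := mul_nonneg ht hn0.le
  set c := pw r with hc
  have hc0 : ∀ k, 0 ≤ c k := pw_nonneg hr0
  have hu : ∀ i, HasSum (fun k => c k * du i ((step J)^[k] g) x) (du i (sg J g t) x) := by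
    intro i
    have h := (hasSum_sg J g (Nat.cast_pos.1 hn0) t (Function.update x i true)).sub
      (hasSum_sg J g (Nat.cast_pos.1 hn0) t (Function.update x i false))
    simpa [du, mul_sub] using h
  have hlim : Tendsto (fun N => ∑ i, (∑ k ∈ range N, c k * du i ((step J)^[k] g) x) ^ 2) atTop
      (𝓝 (G (sg J g t) x)) :=
    tendsto_finsetSum _ fun i _ => (hu i).tendsto_sum_nat.pow 2
  refine le_of_tendsto' hlim fun N => ?_
  have hb : 0 ≤ 1 + rateK a / n := by
    have := rateK_pos a
    positivity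
  have hc1 : ∑ k ∈ range N, c k ≤ 1 := by
    simp only [hc, pw, ← mul_sum]
    calc _ ≤ Real.exp (-r) * Real.exp r :=
          mul_le_mul_of_nonneg_left (Real.sum_le_exp_of_nonneg hr0 N) (Real.exp_pos _).le
      _ = 1 := by rw [← Real.exp_add, neg_add_cancel, Real.exp_zero]
  have hcb : ∑ k ∈ range N, c k * (1 + rateK a / n) ^ k ≤ Real.exp (rateK a * t) := by
    simp only [hc, pw, mul_assoc, ← mul_sum, div_mul_eq_mul_div, ← mul_pow]
    calc _ ≤ Real.exp (-r) * Real.exp (r * (1 + rateK a / n)) :=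
          mul_le_mul_of_nonneg_left (Real.sum_le_exp_of_nonneg (mul_nonneg hr0 hb) N)
            (Real.exp_pos _).le
      _ = _ := by
          rw [← Real.exp_add, hr]
          congr 1
          field_simp
          ring
  calc ∑ i, (∑ k ∈ range N, c k * du i ((step J)^[k] g) x) ^ 2
      ≤ ∑ i, (∑ k ∈ range N, c k) * ∑ k ∈ range N, c k * du i ((step J)^[k] g) x ^ 2 :=
        sum_le_sum fun i _ => sum_sq_le_sum_mul_sum_of_sq_le_mul _ (fun k _ => hc0 k)
          (fun k _ => mul_nonneg (hc0 k) (sq_nonneg _)) fun k _ => le_of_eq (by ring)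
    _ ≤ ∑ i, 1 * ∑ k ∈ range N, c k * du i ((step J)^[k] g) x ^ 2 :=
        sum_le_sum fun i _ => mul_le_mul_of_nonneg_right hc1
          (sum_nonneg fun k _ => mul_nonneg (hc0 k) (sq_nonneg _))
    _ = ∑ k ∈ range N, c k * G ((step J)^[k] g) x := by
        simp only [one_mul, G, mul_sum]
        exact sum_comm
    _ ≤ ∑ k ∈ range N, c k * ((1 + rateK a / n) ^ k * M) :=
        sum_le_sum fun k _ => mul_le_mul_of_nonneg_left (G_iterate ha hJ hn g hM k x) (hc0 k)
    _ ≤ _ := by
        simp only [← mul_assoc, ← sum_mul]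
        exact mul_le_mul_of_nonneg_right hcb hM0

variable (J)

lemma sg_one (t : ℝ) (x : Fin n → Bool) : sg J (fun _ => 1) t x = 1 := by
  have d : ∀ r y, HasDerivAt (fun s => ∑ z, kernel J 0 s y z * (1 : ℝ)) 0 r := by
    intro r y
    have hd := hasDerivAt_exp_smul_const (generator J 0) r
    have he : ∀ z, HasDerivAt (fun s => kernel J 0 s y z)
        ((kernel J 0 r * generator J 0) y z) r := fun z =>
      ((Matrix.entryLinearMap ℝ ℝ y z).toContinuousLinearMap).hasFDerivAt.comp_hasDerivAt r hd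
    refine (HasDerivAt.fun_sum fun z _ => (he z).mul_const (1 : ℝ)).congr_deriv ?_
    simp only [mul_one, Matrix.mul_apply]
    rw [sum_comm]
    refine sum_eq_zero fun w _ => ?_
    have h1 := lap_one J w
    simp only [Lap, mul_one] at h1
    rw [← mul_sum, h1, mul_zero]
  have h := is_const_of_deriv_eq_zero (fun r => (d r x).differentiableAt) (fun r => (d r x).deriv) t 0
  show ∑ z, kernel J 0 t x z * (1 : ℝ) = 1
  rw [h]
  simp [kernel, Matrix.one_apply]

/-- The rate of production of variance is at most the squared gradient. -/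
lemma gamma_le (h : (Fin n → Bool) → ℝ) (x : Fin n → Bool) :
    Lap J (fun y => h y ^ 2) x - 2 * h x * Lap J h x ≤ G h x := by
  simp only [Lap, generator_mulVec, condExp_eq_Qop, mul_sum, G, ← sum_sub_distrib]
  refine sum_le_sum fun j _ => ?_
  simp only [Qop, du]
  have hp := pp_pos J j x
  have hq := pp_lt_one J j x
  have hx : h x = h (Function.update x j (x j)) := by rw [Function.update_eq_self]
  rw [hx]
  set A := h (Function.update x j true)
  set B := h (Function.update x j false)
  cases x j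
  · nlinarith [mul_nonneg (sub_pos.2 hq).le (sq_nonneg (A - B))]
  · nlinarith [mul_nonneg hp.le (sq_nonneg (A - B))]

variable {J}

/-- Variance of a function of the state at time `t` from a fixed start. -/
theorem variance_growth (f : (Fin n → Bool) → ℝ) {t C : ℝ} (ht : 0 ≤ t)
    (hG : ∀ s ∈ Set.Icc (0 : ℝ) t, ∀ y, G (sg J f s) y ≤ C) (x : Fin n → Bool) :
    sg J (fun y => f y ^ 2) t x ≤ sg J f t x ^ 2 + t * C := by
  set V : ℝ → ℝ := fun s => sg J (fun y => sg J f (t - s) y ^ 2) s x with hV
  have dV : ∀ s, HasDerivAt V (∑ z, kernel J 0 s x z *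
      (Lap J (fun y => sg J f (t - s) y ^ 2) z -
        2 * sg J f (t - s) z * Lap J (sg J f (t - s)) z)) s := by
    intro s
    have hd := hasDerivAt_exp_smul_const (generator J 0) s
    have he : ∀ z, HasDerivAt (fun r => kernel J 0 r x z)
        ((kernel J 0 s * generator J 0) x z) s := fun z =>
      ((Matrix.entryLinearMap ℝ ℝ x z).toContinuousLinearMap).hasFDerivAt.comp_hasDerivAt s hd
    have hh : ∀ z, HasDerivAt (fun r => sg J f (t - r) z) (-Lap J (sg J f (t - s)) z) s := by
      intro z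
      have h1 : HasDerivAt (fun r : ℝ => t - r) (-1) s := (hasDerivAt_id s).const_sub t
      have := (hasDerivAt_sg J f (t - s) z).comp s h1
      simpa [Function.comp_def] using this
    refine (HasDerivAt.fun_sum fun z _ => (he z).fun_mul ((hh z).pow 2)).congr_deriv ?_
    simp only [mul_sub, sum_sub_distrib, Matrix.mul_apply, Lap, sum_add_distrib, sum_mul, mul_sum]
    refine Eq.trans ?_ (sub_eq_add_neg _ _).symm
    rw [← sum_neg_distrib]
    congr 1
    · rw [sum_comm]
      exact sum_congr rfl fun _ _ => sum_congr rfl fun _ _ => by simp only [Pi.pow_apply]; ring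
    · refine sum_congr rfl fun z _ => ?_
      push_cast
      simp only [pow_one, mul_neg, mul_sum, ← sum_neg_distrib]
  have hmono : AntitoneOn (fun s => V s - C * s) (Set.Icc 0 t) := by
    refine antitoneOn_of_deriv_nonpos (convex_Icc 0 t) ?_ ?_ fun s hs => ?_
    · exact fun s _ => ((dV s).fun_sub ((hasDerivAt_id s).const_mul C)).continuousAt.continuousWithinAt
    · exact fun s _ =>
        ((dV s).fun_sub ((hasDerivAt_id s).const_mul C)).differentiableAt.differentiableWithinAt
    · have hd : HasDerivAt (fun s => V s - C * s) _ s := (dV s).fun_sub ((hasDerivAt_id s).const_mul C)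
      rw [hd.deriv, mul_one, sub_nonpos]
      rw [interior_Icc] at hs
      refine (sum_le_sum (g := fun z => kernel J 0 s x z * C) fun z _ =>
        mul_le_mul_of_nonneg_left ((gamma_le J _ z).trans
          (hG (t - s) ⟨by linarith [hs.2], by linarith [hs.1]⟩ z))
          (kernel_nonneg J 0 hs.1.le x z)).trans (le_of_eq ?_)
      rw [← sum_mul]
      have h1 := sg_one J s x
      simp only [sg, mul_one] at h1
      rw [h1, one_mul]
  have h := hmono (Set.left_mem_Icc.2 ht) (Set.right_mem_Icc.2 ht) ht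
  simp only [mul_zero, sub_zero, hV, sub_self, sg_zero] at h
  linarith

variable (J)

/-- A centred unit function has autocorrelation at least `exp (- t D)`. -/
theorem autocorr_ge (f : (Fin n → Bool) → ℝ) (hf : ∑ x, gibbs J 0 x * f x ^ 2 = 1)
    (hD : dirichlet J 0 f ≤ 1) {t : ℝ} (ht : 0 ≤ t) :
    Real.exp (-t) ≤ ∑ x, gibbs J 0 x * f x * sg J f t x := by
  set V : ℝ → ℝ := fun r => ∑ x, gibbs J 0 x * sg J f r x ^ 2 with hV
  set E : ℝ → ℝ := fun r => ∑ x, gibbs J 0 x * sg J f r x * Lap J (sg J f r) x with hE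
  have dV : ∀ r, HasDerivAt V (2 * E r) r := fun r => by
    refine (HasDerivAt.fun_sum fun x _ =>
      ((hasDerivAt_sg J f r x).pow 2).const_mul (gibbs J 0 x)).congr_deriv ?_
    simp only [hE, mul_sum]
    exact sum_congr rfl fun x _ => by norm_num; ring
  have dE : ∀ r, HasDerivAt E (2 * ∑ x, gibbs J 0 x * Lap J (sg J f r) x ^ 2) r := fun r => by
    have dL : ∀ x, HasDerivAt (fun s => Lap J (sg J f s) x)
        (Lap J (Lap J (sg J f r)) x) r := fun x =>
      HasDerivAt.fun_sum fun y _ => (hasDerivAt_sg J f r y).const_mul (generator J 0 x y)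
    refine (HasDerivAt.fun_sum fun x _ =>
      ((hasDerivAt_sg J f r x).const_mul (gibbs J 0 x)).mul (dL x)).congr_deriv ?_
    rw [sum_add_distrib, lap_symm J (sg J f r) (Lap J (sg J f r)), ← sum_add_distrib, mul_sum]
    exact sum_congr rfl fun x _ => by ring
  have hpos : ∀ r, 0 < V r := by
    intro r
    refine lt_of_le_of_ne
      (sum_nonneg fun x _ => mul_nonneg (Slow.gibbs_pos J x).le (sq_nonneg _)) fun h => ?_
    have h0 : sg J f r = 0 := funext fun x => by
      have h1 := (sum_eq_zero_iff_of_nonneg fun x _ =>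
        mul_nonneg (Slow.gibbs_pos J x).le (sq_nonneg (sg J f r x))).1 h.symm x (mem_univ x)
      exact pow_eq_zero_iff two_ne_zero |>.1 ((mul_eq_zero.1 h1).resolve_left
        (Slow.gibbs_pos J x).ne')
    have h2 := sg_add J f (-r) r
    rw [neg_add_cancel, sg_zero, h0] at h2
    have h3 : f = 0 := h2.trans (funext fun x => by simp [sg])
    rw [h3] at hf
    simp at hf
  have hE0 : -1 ≤ E 0 := by
    have : E 0 = -dirichlet J 0 f := by simp [hE, sg_zero, dirichlet_eq]
    linarith
  have hV0 : V 0 = 1 := by simp [hV, sg_zero, hf]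
  have hR : Monotone fun r => E r / V r := monotone_of_deriv_nonneg
    (fun r => ((dE r).div (dV r) (hpos r).ne').differentiableAt) fun r => by
    have hd : HasDerivAt (fun r => E r / V r) _ r := (dE r).div (dV r) (hpos r).ne'
    rw [hd.deriv]
    refine div_nonneg ?_ (sq_nonneg _)
    have hcs : E r ^ 2 ≤ V r * ∑ x, gibbs J 0 x * Lap J (sg J f r) x ^ 2 :=
      sum_sq_le_sum_mul_sum_of_sq_le_mul _
        (fun x _ => mul_nonneg (Slow.gibbs_pos J x).le (sq_nonneg _))
        (fun x _ => mul_nonneg (Slow.gibbs_pos J x).le (sq_nonneg _)) fun x _ => le_of_eq (by ring)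
    nlinarith
  have hmono : MonotoneOn (fun r => V r * Real.exp (2 * r)) (Set.Ici 0) := by
    refine monotoneOn_of_deriv_nonneg (convex_Ici 0)
      (fun r _ => ((dV r).fun_mul (((hasDerivAt_id r).const_mul 2).exp)).continuousAt.continuousWithinAt)
      (fun r _ => ((dV r).fun_mul
        (((hasDerivAt_id r).const_mul 2).exp)).differentiableAt.differentiableWithinAt) fun r hr => ?_
    have hd : HasDerivAt (fun r => V r * Real.exp (2 * r))
        (2 * E r * Real.exp (2 * r) + V r * (Real.exp (2 * r) * (2 * 1))) r :=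
      (dV r).fun_mul (((hasDerivAt_id r).const_mul 2).exp)
    rw [hd.deriv]
    have h1 := hR (Set.mem_Ici.1 (interior_subset hr))
    simp only [hV0, div_one] at h1
    have h2 : -1 ≤ E r / V r := hE0.trans h1
    rw [le_div_iff₀ (hpos r)] at h2
    nlinarith [Real.exp_pos (2 * r)]
  have hkey := hmono (Set.self_mem_Ici) (show t / 2 ∈ Set.Ici (0 : ℝ) from Set.mem_Ici.2 (by linarith))
    (by linarith)
  simp only [hV0, mul_zero, Real.exp_zero, mul_one] at hkey
  rw [show 2 * (t / 2) = t by ring] at hkey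
  have hconst : ∑ x, gibbs J 0 x * f x * sg J f t x = V (t / 2) := by
    set φ : ℝ → ℝ := fun s => ∑ x, gibbs J 0 x * sg J f s x * sg J f (t - s) x
    have dφ : ∀ s, HasDerivAt φ 0 s := fun s => by
      have hh : ∀ z, HasDerivAt (fun r => sg J f (t - r) z) (-Lap J (sg J f (t - s)) z) s := by
        intro z
        have h1 : HasDerivAt (fun r : ℝ => t - r) (-1) s := (hasDerivAt_id s).const_sub t
        have := (hasDerivAt_sg J f (t - s) z).comp s h1
        simpa [Function.comp_def] using this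
      refine (HasDerivAt.fun_sum fun x _ =>
        ((hasDerivAt_sg J f s x).const_mul (gibbs J 0 x)).fun_mul (hh x)).congr_deriv ?_
      simp only [mul_neg, sum_add_distrib, sum_neg_distrib]
      rw [← lap_symm J (sg J f (t - s)) (sg J f s), add_neg_eq_zero]
      exact sum_congr rfl fun x _ => by ring
    have h := is_const_of_deriv_eq_zero (fun s => (dφ s).differentiableAt) (fun s => (dφ s).deriv)
      0 (t / 2)
    simp only [φ, sub_zero, sg_zero, show t - t / 2 = t / 2 by ring] at h
    rw [h]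
    simp only [hV, sq, mul_assoc]
  rw [hconst, Real.exp_neg, inv_le_iff_one_le_mul₀ (Real.exp_pos t)]
  exact hkey

lemma lin_flip (y : Fin n → Bool) (x : Fin n → Bool) :
    lin y (fun i => !x i) = -lin y x := by
  simp [lin, spin_not]

lemma gibbs_nonpos_ge_half (y : Fin n → Bool) :
    1 / 2 ≤ ∑ z, gibbs J 0 z * if lin y z ≤ 0 then 1 else 0 := by
  let e : (Fin n → Bool) ≃ (Fin n → Bool) :=
    ⟨fun x i => !x i, fun x i => !x i, fun x => by simp, fun x => by simp⟩
  have hw : ∀ x, gibbs J 0 (e x) = gibbs J 0 x := fun x => by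
    simp only [gibbs, weight, e, Equiv.coe_fn_mk, spin_not, Pi.zero_apply, zero_mul, mul_neg,
      neg_mul, neg_neg, neg_zero]
  have h := Equiv.sum_comp e (fun z => gibbs J 0 z * if lin y z ≤ 0 then (1 : ℝ) else 0)
  simp only [hw] at h
  have h2 : ∀ z, gibbs J 0 z ≤ (gibbs J 0 z * if lin y (e z) ≤ 0 then (1 : ℝ) else 0) +
      gibbs J 0 z * if lin y z ≤ 0 then 1 else 0 := by
    intro z
    have hg := (Slow.gibbs_pos J z).le
    have he : lin y (e z) = -lin y z := lin_flip y z
    rw [he]
    split_ifs <;> linarith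
  have h3 := sum_le_sum fun z (_ : z ∈ (univ : Finset (Fin n → Bool))) => h2 z
  rw [sum_add_distrib, h, Slow.gibbs_sum] at h3
  linarith

lemma spin_sq_one (i : Fin n) : ∑ x, gibbs J 0 x * spin (x i) ^ 2 = 1 := by
  simp only [sq, spin_mul_self, mul_one]
  exact Slow.gibbs_sum J

lemma dirichlet_spin (i : Fin n) : dirichlet J 0 (fun x => spin (x i)) ≤ 1 := by
  have h := dirichlet_linear_le J 0 (fun k => if k = i then 1 else 0)
  simpa [sum_ite_eq', ite_pow] using h

lemma exists_start {t : ℝ} (ht : 0 ≤ t) :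
    ∃ x, n * Real.exp (-t) ≤ sg J (lin x) t x := by
  by_contra hh
  push Not at hh
  have h1 : ∑ x, gibbs J 0 x * sg J (lin x) t x <
      ∑ x, gibbs J 0 x * (n * Real.exp (-t)) :=
    sum_lt_sum_of_nonempty univ_nonempty fun x _ =>
      mul_lt_mul_of_pos_left (hh x) (Slow.gibbs_pos J x)
  rw [← sum_mul, Slow.gibbs_sum, one_mul] at h1
  have e : ∑ x, gibbs J 0 x * sg J (lin x) t x =
      ∑ i, ∑ x, gibbs J 0 x * spin (x i) * sg J (fun z => spin (z i)) t x := by
    rw [sum_comm]
    refine sum_congr rfl fun x _ => ?_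
    simp only [sg, lin, mul_sum]
    rw [sum_comm]
    exact sum_congr rfl fun _ _ => sum_congr rfl fun _ _ => by ring
  have h2 : (n : ℝ) * Real.exp (-t) ≤ ∑ x, gibbs J 0 x * sg J (lin x) t x := by
    rw [e]
    calc (n : ℝ) * Real.exp (-t) = ∑ _i : Fin n, Real.exp (-t) := by simp
      _ ≤ _ := sum_le_sum fun i _ => autocorr_ge J _ (spin_sq_one J i) (dirichlet_spin J i) ht
  linarith

lemma du_lin (y : Fin n → Bool) (i : Fin n) (x : Fin n → Bool) : du i (lin y) x = 2 * spin (y i) := by
  simp only [du, lin, ← sum_sub_distrib]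
  rw [Finset.sum_eq_single i]
  · simp only [Function.update_self]; cases y i <;> simp [spin] <;> norm_num
  · intro j _ hj; simp [hj]
  · simp

variable {J}

/-- The lower bound: no mixing while `64 t e^{(K+2)t} < n`. -/
theorem not_mixed_log (ha : 0 < a)
    (hJ : ∀ v : Fin n → ℝ, |∑ i, ∑ j, symJ J i j * v i * v j| ≤ a * ∑ i, v i ^ 2)
    (hn : rateK a ≤ n) {t : ℝ} (ht : 0 ≤ t) (hbig : 64 * t * Real.exp ((rateK a + 2) * t) < n) :
    ∃ x, 1 / 4 < tvGibbs J 0 t x := by
  by_contra hh
  push Not at hh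
  obtain ⟨x, hx⟩ := exists_start J ht
  set m := sg J (lin x) t x with hm
  have hn0 : (0 : ℝ) < n := lt_of_lt_of_le (by linarith [rateK_pos a]) hn
  have hm0 : 0 < m := lt_of_lt_of_le (mul_pos hn0 (Real.exp_pos _)) hx
  have hG0 : ∀ y, G (lin x) y ≤ 4 * n := fun y => by
    have e : ∀ i : Fin n, du i (lin x) y ^ 2 = 4 := fun i => by
      rw [du_lin, mul_pow, sq (spin (x i)), spin_mul_self]; norm_num
    simp only [G, e, sum_const, card_univ, Fintype.card_fin, nsmul_eq_mul]
    linarith
  have hvar := variance_growth (J := J) (lin x) (C := Real.exp (rateK a * t) * (4 * n)) ht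
    (fun s hs y => (G_sg ha hJ hn (lin x) hG0 hs.1 y).trans (mul_le_mul_of_nonneg_right
      (Real.exp_le_exp.2 (mul_le_mul_of_nonneg_left hs.2 (by linarith [rateK_pos a])))
      (by positivity))) x
  set k := fun z => kernel J 0 t x z
  have hk0 : ∀ z, 0 ≤ k z := fun z => kernel_nonneg J 0 ht x z
  have hk1 : ∑ z, k z = 1 := by simpa [sg, k] using sg_one J t x
  set ind : (Fin n → Bool) → ℝ := fun z => if lin x z ≤ 0 then 1 else 0 with hind
  have hcheb : m ^ 2 * ∑ z, k z * ind z ≤ t * (Real.exp (rateK a * t) * (4 * n)) := by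
    have h1 : ∑ z, k z * (lin x z - m) ^ 2 = sg J (fun y => lin x y ^ 2) t x - m ^ 2 := by
      have hm' : ∑ z, k z * lin x z = m := rfl
      have e : ∀ z, k z * (lin x z - m) ^ 2 =
          k z * lin x z ^ 2 - 2 * m * (k z * lin x z) + m ^ 2 * k z := fun z => by ring
      simp only [e, sum_add_distrib, sum_sub_distrib, ← mul_sum, hm', hk1]
      simp only [sg, k]
      ring
    have h2 : m ^ 2 * ∑ z, k z * ind z ≤ ∑ z, k z * (lin x z - m) ^ 2 := by
      rw [mul_sum]
      refine sum_le_sum fun z _ => ?_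
      simp only [hind]
      split_ifs with hz
      · rw [mul_one, mul_comm (m ^ 2)]
        exact mul_le_mul_of_nonneg_left (by nlinarith) (hk0 z)
      · simpa using mul_nonneg (hk0 z) (sq_nonneg _)
    linarith
  have hlow : 1 / 4 ≤ ∑ z, k z * ind z := by
    have h1 := gibbs_nonpos_ge_half J x
    have h2 : ∑ z, (gibbs J 0 z - k z) * ind z ≤ 1 / 4 := by
      have htv := hh x
      have e : ∑ z, (gibbs J 0 z - k z) * ind z =
          ∑ z, (gibbs J 0 z - k z) * (ind z - 1 / 2) := by
        simp only [mul_sub, sum_sub_distrib, ← sum_mul, Slow.gibbs_sum, hk1, sub_self, zero_mul,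
          sub_zero]
      rw [e]
      refine le_trans (sum_le_sum (g := fun z => 1 / 2 * |k z - gibbs J 0 z|) fun z _ => ?_)
        (by rw [← mul_sum]; exact htv)
      have : |ind z - 1 / 2| = 1 / 2 := by simp only [hind]; split_ifs <;> norm_num
      refine (le_abs_self _).trans (le_of_eq ?_)
      rw [abs_mul, this, abs_sub_comm, mul_comm]
    have e : ∑ z, (gibbs J 0 z - k z) * ind z =
        (∑ z, gibbs J 0 z * ind z) - ∑ z, k z * ind z := by
      rw [← sum_sub_distrib]; simp only [sub_mul]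
    simp only [hind] at h2 e ⊢
    linarith
  have h3 : m ^ 2 * (1 / 4) ≤ t * (Real.exp (rateK a * t) * (4 * n)) :=
    (mul_le_mul_of_nonneg_left hlow (sq_nonneg m)).trans hcheb
  have h4 := pow_le_pow_left₀ (by positivity) hx 2
  rw [mul_pow, ← Real.exp_nat_mul] at h4
  have h5 : Real.exp ((rateK a + 2) * t) * Real.exp ((2 : ℕ) * -t) = Real.exp (rateK a * t) := by
    rw [← Real.exp_add]; congr 1; push_cast; ring
  have h6 := mul_lt_mul_of_pos_right (mul_lt_mul_of_pos_right hbig
    (Real.exp_pos ((2 : ℕ) * -t))) hn0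
  rw [mul_assoc (64 * t), h5] at h6
  have h7 : 0 ≤ t * Real.exp (rateK a * t) * n :=
    mul_nonneg (mul_nonneg ht (Real.exp_pos _).le) hn0.le
  nlinarith

/-- A gap bound in zero field is at most one. -/
theorem gap_le_one (hn : 0 < n) {γ : ℝ} (hg : GapAtLeast J 0 γ) : γ ≤ 1 := by
  have h := (hg fun x => spin (x ⟨0, hn⟩)).trans (dirichlet_spin J ⟨0, hn⟩)
  have hmean : mean J 0 (fun x => spin (x ⟨0, hn⟩)) = 0 := by
    let e : (Fin n → Bool) ≃ (Fin n → Bool) :=
      ⟨fun x i => !x i, fun x i => !x i, fun x => by simp, fun x => by simp⟩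
    have hw : ∀ x, gibbs J 0 (e x) = gibbs J 0 x := fun x => by
      simp only [gibbs, weight, e, Equiv.coe_fn_mk, spin_not, Pi.zero_apply, zero_mul, mul_neg,
        neg_mul, neg_neg, neg_zero]
    have h := Equiv.sum_comp e (fun x => gibbs J 0 x * spin (x ⟨0, hn⟩))
    have h2 : ∑ x, gibbs J 0 (e x) * spin (e x ⟨0, hn⟩) =
        -∑ x, gibbs J 0 x * spin (x ⟨0, hn⟩) := by
      rw [← sum_neg_distrib]
      refine sum_congr rfl fun x _ => ?_
      rw [hw]
      simp [e, spin_not]
    simp only [mean]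
    linarith
  simp only [variance, hmean, sub_zero, spin_sq_one J, mul_one] at h
  exact h

end Vale.Agent.P150.LogLow
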