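import Vale.Agent.P150.Mixing
import Vale.Agent.P150.Norm

/-!
Glauber dynamics of the Sherrington–Kirkpatrick model mixes in logarithmic time below one half.
-/

namespace Vale.Agent.P150.LogUpper

open Filter MeasureTheory Vale.Agent.P150
open scoped Topology

/-- For every `β < 1/2` and `ε > 0` there is `C` such that, with probability tending to one over
the disorder, the gap is at least `1 - 2 β - ε` (for every external field) and, in zero field, the
total variation distance to equilibrium is at most `1/4` from every start at every time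
`t ≥ C log n`. -/
theorem mixing_below_half : ∀ β : ℝ, 0 ≤ β → β < 1 / 2 → ∀ ε : ℝ, 0 < ε → ∃ C : ℝ,
    Tendsto (fun n ↦ disorder n {g |
      (∀ h : Fin n → ℝ, GapAtLeast (skJ n β g) h (1 - 2 * β - ε)) ∧
      ∀ t : ℝ, C * Real.log n ≤ t → ∀ x, tvGibbs (skJ n β g) 0 t x ≤ 1 / 4}) atTop (𝓝 1) := by
  intro β hb hb2 ε he
  set e := min ε ((1 - 2 * β) / 2)
  have hee : e ≤ ε := min_le_left _ _
  have he0 : 0 < e := lt_min he (by linarith)
  have he2 : 2 * β + e < 1 := by
    have : e ≤ (1 - 2 * β) / 2 := min_le_right _ _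
    linarith
  set a := 2 * β + e with ha
  have ha0 : 0 ≤ a := by linarith
  set c := Real.exp (-(16 * (2 * a / (1 - a)) + 2)) with hc
  have hc0 : 0 < c := Real.exp_pos _
  refine ⟨8 / c, ?_⟩
  refine tendsto_of_tendsto_of_tendsto_of_le_of_le' (sk_norm hb he0) tendsto_const_nhds ?_ ?_
  · filter_upwards [eventually_ge_atTop 2] with n hn
    refine measure_mono fun g hg ↦ ⟨fun h f ↦ ?_, fun t ht x ↦ ?_⟩
    · have hv : ∀ v : Fin n → ℝ, ∑ i, ∑ j, tanhMat (skJ n β g) i j * v i * v j ≤
          a * ∑ i, v i ^ 2 := fun v ↦ by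
        have := (hg v).2 1 ⟨zero_le_one, le_rfl⟩
        simpa using this
      refine le_trans (mul_le_mul_of_nonneg_right ?_ ?_) (gap_of_tanh _ h hv he2 f)
      · linarith
      · exact Finset.sum_nonneg fun x _ ↦ mul_nonneg
          (div_nonneg (Real.exp_pos _).le (Finset.sum_nonneg fun _ _ ↦ (Real.exp_pos _).le))
          (sq_nonneg _)
    · have hfac := entropy_factor (skJ n β g) 0 ha0 he2 (fun v ↦ (hg v).1)
        (fun s hs v ↦ (hg v).2 s hs)
      have hn' : (2 : ℝ) ≤ n := by exact_mod_cast hn
      have hl0 : 0 ≤ Real.log n := Real.log_nonneg (by linarith)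
      have ht0 : 0 ≤ t := le_trans (mul_nonneg (div_nonneg (by norm_num) hc0.le) hl0) ht
      have htv := tv_le_of_factor (skJ n β g) 0 (c := c) hfac x ht0
      have hat := log_inv_atom_le (skJ n β g) (fun v ↦ (hg v).1) x
      have hexp : Real.exp (-c * t) ≤ 1 / (n : ℝ) ^ 8 := by
        rw [← Real.exp_log (by positivity : (0 : ℝ) < (n : ℝ) ^ 8), one_div, ← Real.exp_neg,
          Real.exp_le_exp, Real.log_pow]
        have h8 := mul_le_mul_of_nonneg_left ht hc0.le
        rw [← mul_assoc, mul_div_cancel₀ _ hc0.ne'] at h8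
        push_cast
        linarith
      have hnum : 32 * ((n : ℝ) + 1 + a * n) ≤ (n : ℝ) ^ 8 := by
        have h7 : (128 : ℝ) ≤ (n : ℝ) ^ 7 :=
          le_trans (by norm_num) (pow_le_pow_left₀ (by norm_num) hn' 7)
        have h7' := mul_le_mul_of_nonneg_right h7 (show (0 : ℝ) ≤ n by linarith)
        nlinarith
      have hsq : tvGibbs (skJ n β g) 0 t x ^ 2 ≤ 1 / 16 := by
        refine htv.trans ?_
        calc 2 * Real.exp (-c * t) * Real.log (1 + (∑ y, weight (skJ n β g) 0 y) /
              weight (skJ n β g) 0 x)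
            ≤ 2 * Real.exp (-c * t) * ((n : ℝ) + 1 + a * n) :=
              mul_le_mul_of_nonneg_left hat (by positivity)
          _ ≤ 2 * (1 / (n : ℝ) ^ 8) * ((n : ℝ) + 1 + a * n) :=
              mul_le_mul_of_nonneg_right (by linarith) (by positivity)
          _ ≤ 1 / 16 := by
              rw [mul_one_div, div_mul_eq_mul_div, div_le_iff₀ (by positivity)]
              linarith
      exact le_of_pow_le_pow_left₀ two_ne_zero (by norm_num) (hsq.trans (by norm_num))
  · refine Eventually.of_forall fun n ↦ ?_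
    have : IsProbabilityMeasure (disorder n) := by unfold disorder; infer_instance
    exact prob_le_one

end Vale.Agent.P150.LogUpper
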